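import Mathlib
import Vale.Agent.Lib.P137.helper41.Defs

/-!
# P137 pool job BR7 (helper69): `le_tail_deriv`

For a Lipschitz antitone function `F : ℝ → ℝ` tending to `0` at `+∞`,
`F ρ ≤ ∫_{(ρ,∞)} |F'|` (fundamental theorem of calculus for absolutely continuous functions
on `[ρ, b]`, then `b → ∞`).
-/

namespace Vale.Agent.Lib.P137.H69

open Vale.Agent.Lib.P137 MeasureTheory Metric Set Filter
open scoped ENNReal NNReal Topology

/-- On a bounded interval: `F ρ - F b ≤ ∫⁻_{(ρ,∞)} |F'|`. -/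
theorem h69_le_tail_deriv_aux (F : ℝ → ℝ) (hF : Antitone F) {L : ℝ≥0} (hL : LipschitzWith L F)
    (ρ b : ℝ) (hb : ρ < b) :
    ENNReal.ofReal (F ρ - F b) ≤ ∫⁻ s in Ioi ρ, ENNReal.ofReal |deriv F s| := by
  have hac : AbsolutelyContinuousOnInterval F ρ b :=
    (hL.lipschitzOnWith (s := uIcc ρ b)).absolutelyContinuousOnInterval
  have hint : ∫ x in ρ..b, deriv F x = F b - F ρ := hac.integral_deriv_eq_sub
  have habs : ∀ s, |deriv F s| = - deriv F s := fun s => abs_of_nonpos hF.deriv_nonpos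
  have hmeas : Measurable (fun s => |deriv F s|) :=
    continuous_abs.measurable.comp (measurable_deriv F)
  have hII : IntegrableOn (fun s => |deriv F s|) (Ioc ρ b) := by
    refine Measure.integrableOn_of_bounded (M := (L : ℝ)) measure_Ioc_lt_top.ne
      hmeas.aestronglyMeasurable ?_
    refine Eventually.of_forall fun s => ?_
    have h := norm_deriv_le_of_lipschitz (x₀ := s) hL
    simpa [Real.norm_eq_abs] using h
  have h1 : ∫ s in Ioc ρ b, |deriv F s| = F ρ - F b := by
    have h2 : ∫ s in Ioc ρ b, |deriv F s| = - ∫ s in ρ..b, deriv F s := by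
      rw [intervalIntegral.integral_of_le hb.le, ← integral_neg]
      exact integral_congr_ae (Eventually.of_forall fun s => habs s)
    rw [h2, hint]; ring
  calc ENNReal.ofReal (F ρ - F b) = ENNReal.ofReal (∫ s in Ioc ρ b, |deriv F s|) := by rw [h1]
    _ = ∫⁻ s in Ioc ρ b, ENNReal.ofReal |deriv F s| :=
        ofReal_integral_eq_lintegral_ofReal hII (Eventually.of_forall fun s => abs_nonneg _)
    _ ≤ ∫⁻ s in Ioi ρ, ENNReal.ofReal |deriv F s| := lintegral_mono_set Ioc_subset_Ioi_self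

/-- Pool job P137-BR7. -/
theorem le_tail_deriv (F : ℝ → ℝ) (hF : Antitone F) {L : ℝ≥0} (hL : LipschitzWith L F)
    (hlim : Tendsto F atTop (𝓝 0)) (ρ : ℝ) :
    ENNReal.ofReal (F ρ) ≤ ∫⁻ s in Ioi ρ, ENNReal.ofReal |deriv F s| := by
  have htend : Tendsto (fun b => ENNReal.ofReal (F ρ - F b)) atTop
      (𝓝 (ENNReal.ofReal (F ρ))) := by
    have h : Tendsto (fun b => F ρ - F b) atTop (𝓝 (F ρ - 0)) := tendsto_const_nhds.sub hlim
    rw [sub_zero] at h
    exact (ENNReal.continuous_ofReal.tendsto _).comp h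
  exact le_of_tendsto htend
    ((eventually_gt_atTop ρ).mono fun b hb => h69_le_tail_deriv_aux F hF hL ρ b hb)

end Vale.Agent.Lib.P137.H69
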